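import Vale.Agent.P355.D.LA1
import Vale.Agent.P355.D.Rows

namespace Vale.Agent.P355.K3

theorem runA1 : run (sq (eL 80074990554373668252680192 (it2 tR 0 268435456 268435456) dA1_0)
    (sq (gTri cJ Gp0 Gm0 rw00 17 36)
    (gTri cJ Gp1 Gm1 rw10 6 18)))
    286968329330 = true := by decide +kernel

end Vale.Agent.P355.K3
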