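import Vale.Agent.P355.D.LB0
import Vale.Agent.P355.D.Rows

namespace Vale.Agent.P355.K3

theorem runB0 : run (sq (eL 5124799395479914768171532288 (it2 tR 0 268435456 17179869184) dB0_0)
    (sq (eL 5124799395479914768171532288 (it2 tR 0 268435456 17179869184) dB0_1)
    (sq (eL 5124799395479914768171532288 (it2 tR 0 268435456 17179869184) dB0_2)
    (sq (eL 5124799395479914768171532288 (it2 tR 0 268435456 17179869184) dB0_3)
    (sq (eL 5124799395479914768171532288 (it2 tR 0 268435456 17179869184) dB0_4)
    (sq (eL 2562399697739957384085766144 (it2 tR 0 268435456 8589934592) dB0_5)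
    (sq (gTri cB Gp0 Gm0 rw01 0 9)
    (gTri cB Gp1 Gm1 rw11 0 2))))))))
    207492956164 = true := by decide +kernel

end Vale.Agent.P355.K3
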