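import Vale.Agent.P355.D.LB4
import Vale.Agent.P355.D.Rows

namespace Vale.Agent.P355.K3

theorem runB4 : run (sq (eL 320299962217494673010720768 (it2 tR 0 268435456 1073741824) dB4_0)
    (sq (eL 320299962217494673010720768 (it2 tR 0 268435456 1073741824) dB4_1)
    (sq (eL 160149981108747336505360384 (it2 tR 0 268435456 536870912) dB4_2)
    (sq (eL 160149981108747336505360384 (it2 tR 0 268435456 536870912) dB4_3)
    (sq (eL 320299962217494673010720768 (it2 tR 0 268435456 1073741824) dB4_4)
    (sq (eL 160149981108747336505360384 (it2 tR 0 268435456 536870912) dB4_5)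
    (sq (gTri cB Gp0 Gm0 rw01 34 10)
    (gTri cB Gp1 Gm1 rw11 16 5))))))))
    203227936244 = true := by decide +kernel

end Vale.Agent.P355.K3
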