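import Vale.Agent.P355.D.LB7
import Vale.Agent.P355.D.Rows

namespace Vale.Agent.P355.K3

theorem runB7 : run (sq (eL 640599924434989346021441536 (it2 tR 0 268435456 2147483648) dB7_0)
    (sq (eL 320299962217494673010720768 (it2 tR 0 268435456 1073741824) dB7_1)
    (sq (eL 320299962217494673010720768 (it2 tR 0 268435456 1073741824) dB7_2)
    (sq (eL 640599924434989346021441536 (it2 tR 0 268435456 2147483648) dB7_3)
    (sq (eL 320299962217494673010720768 (it2 tR 0 268435456 1073741824) dB7_4)
    (sq (eL 320299962217494673010720768 (it2 tR 0 268435456 1073741824) dB7_5)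
    (sq (gTri cB Gp0 Gm0 rw01 68 19)
    (gTri cB Gp1 Gm1 rw11 32 4))))))))
    270255620600 = true := by decide +kernel

end Vale.Agent.P355.K3
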