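import Vale.Agent.P355.D.LB9
import Vale.Agent.P355.D.Rows

namespace Vale.Agent.P355.K3

theorem runB9 : run (sq (eL 20018747638593417063170048 (it2 tR 0 268435456 67108864) dB9_0)
    (sq (eL 40037495277186834126340096 (it2 tR 0 268435456 134217728) dB9_1)
    (sq (eL 10009373819296708531585024 (it2 tR 0 268435456 33554432) dB9_2)
    (sq (eL 40037495277186834126340096 (it2 tR 0 268435456 134217728) dB9_3)
    (sq (eL 20018747638593417063170048 (it2 tR 0 268435456 67108864) dB9_4)
    (sq (eL 40037495277186834126340096 (it2 tR 0 268435456 134217728) dB9_5)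
    (sq (gTri cB Gp0 Gm0 rw01 106 43)
    (gTri cB Gp1 Gm1 rw11 46 26))))))))
    236621698356 = true := by decide +kernel

end Vale.Agent.P355.K3
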