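import Vale.Agent.P355.D.LC0
import Vale.Agent.P355.D.Rows

namespace Vale.Agent.P355.K3

theorem runC0 : run (sq (eL 1281199848869978692042883072 (it2 tR 0 268435456 4294967296) dC0_0)
    (sq (eL 80074990554373668252680192 (it2 tR 0 268435456 268435456) dC0_1)
    (sq (gTri cC Gp0 Gm0 rw01 0 9)
    (gTri cC Gp1 Gm1 rw11 0 2))))
    205178481804 = true := by decide +kernel

end Vale.Agent.P355.K3
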