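import Vale.Agent.P355.D.LC1
import Vale.Agent.P355.D.Rows

namespace Vale.Agent.P355.K3

theorem runC1 : run (sq (eL 320299962217494673010720768 (it2 tR 0 268435456 1073741824) dC1_0)
    (sq (eL 640599924434989346021441536 (it2 tR 0 268435456 2147483648) dC1_1)
    (sq (gTri cC Gp0 Gm0 rw01 9 9)
    (gTri cC Gp1 Gm1 rw11 2 3))))
    273058173534 = true := by decide +kernel

end Vale.Agent.P355.K3
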