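import Vale.Agent.P355.D.LC2
import Vale.Agent.P355.D.Rows

namespace Vale.Agent.P355.K3

theorem runC2 : run (sq (eL 640599924434989346021441536 (it2 tR 0 268435456 2147483648) dC2_0)
    (sq (eL 320299962217494673010720768 (it2 tR 0 268435456 1073741824) dC2_1)
    (sq (gTri cC Gp0 Gm0 rw01 18 10)
    (gTri cC Gp1 Gm1 rw11 5 3))))
    418242895758 = true := by decide +kernel

end Vale.Agent.P355.K3
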