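import Vale.Agent.P355.D.LC7
import Vale.Agent.P355.D.Rows

namespace Vale.Agent.P355.K3

theorem runC7 : run (sq (eL 40037495277186834126340096 (it2 tR 0 268435456 134217728) dC7_0)
    (sq (eL 80074990554373668252680192 (it2 tR 0 268435456 268435456) dC7_1)
    (sq (gTri cC Gp0 Gm0 rw01 68 19)
    (gTri cC Gp1 Gm1 rw11 32 4))))
    269801223880 = true := by decide +kernel

end Vale.Agent.P355.K3
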