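import Vale.Agent.P355.D.LC9
import Vale.Agent.P355.D.Rows

namespace Vale.Agent.P355.K3

theorem runC9 : run (sq (eL 10009373819296708531585024 (it2 tR 0 268435456 33554432) dC9_0)
    (sq (eL 5004686909648354265792512 (it2 tR 0 268435456 16777216) dC9_1)
    (sq (gTri cC Gp0 Gm0 rw01 106 43)
    (gTri cC Gp1 Gm1 rw11 46 26))))
    231608445992 = true := by decide +kernel

end Vale.Agent.P355.K3
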