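import Vale.Agent.P355.D.FFB1
import Vale.Agent.P355.D.LFB1

namespace Vale.Agent.P355.K3

theorem runFB1 : run (sq (eL 2562399697739957384085766144 (it2 tB 0 268435456 8589934592) dFB1_0)
    (sq (eL 5124799395479914768171532288 (it2 tB 0 268435456 17179869184) dFB1_1)
    (sq (eL 1281199848869978692042883072 (it2 tB 0 268435456 4294967296) dFB1_2)
    (sq (eL 5124799395479914768171532288 (it2 tB 0 268435456 17179869184) dFB1_3)
    (sq (eL 5124799395479914768171532288 (it2 tB 0 268435456 17179869184) dFB1_4)
    (sq (eL 2562399697739957384085766144 (it2 tB 0 268435456 8589934592) dFB1_5)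
    (gFL g221 fFB1)))))))
    127646012764 = true := by decide +kernel

end Vale.Agent.P355.K3
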