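import Vale.Agent.P355.D.FFB2
import Vale.Agent.P355.D.LFB2

namespace Vale.Agent.P355.K3

theorem runFB2 : run (sq (eL 1281199848869978692042883072 (it2 tB 0 268435456 4294967296) dFB2_0)
    (sq (eL 5124799395479914768171532288 (it2 tB 0 268435456 17179869184) dFB2_1)
    (sq (eL 1281199848869978692042883072 (it2 tB 0 268435456 4294967296) dFB2_2)
    (sq (eL 10249598790959829536343064576 (it2 tB 0 268435456 34359738368) dFB2_3)
    (sq (eL 5124799395479914768171532288 (it2 tB 0 268435456 17179869184) dFB2_4)
    (sq (eL 5124799395479914768171532288 (it2 tB 0 268435456 17179869184) dFB2_5)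
    (gFL g221 fFB2)))))))
    135669481980 = true := by decide +kernel

end Vale.Agent.P355.K3
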