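import Vale.Agent.P355.D.FFC0
import Vale.Agent.P355.D.LFC0

namespace Vale.Agent.P355.K3

theorem runFC0 : run (sq (eL 5124799395479914768171532288 (it2 tA 0 268435456 17179869184) dFC0_0)
    (sq (eL 160149981108747336505360384 (it2 tA 0 268435456 536870912) dFC0_1)
    (gFL g1111 fFC0)))
    33578519236 = true := by decide +kernel

end Vale.Agent.P355.K3
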