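import Vale.Agent.P355.D.FFC1
import Vale.Agent.P355.D.LFC1

namespace Vale.Agent.P355.K3

theorem runFC1 : run (sq (eL 640599924434989346021441536 (it2 tA 0 268435456 2147483648) dFC1_0)
    (sq (eL 160149981108747336505360384 (it2 tA 0 268435456 536870912) dFC1_1)
    (gFL g1111 fFC1)))
    54897832604 = true := by decide +kernel

end Vale.Agent.P355.K3
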