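import Vale.Agent.P355.D.EOA0
import Vale.Agent.P355.D.LOA0

namespace Vale.Agent.P355.K3

theorem runOA0 : run (sq (eL 5247794580971432722607649062912 (it2 tA 0 268435456 17592186044416) dOA0_0)
    (eL 2751355725268350519270519111896006656 (itO tA 268435456 8796093022208) eOA0))
    0 = true := by decide +kernel

end Vale.Agent.P355.K3
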