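import Vale.Agent.P355.D.EOA1
import Vale.Agent.P355.D.LOA1

namespace Vale.Agent.P355.K3

theorem runOA1 : run (sq (eL 655974322621429090325956132864 (it2 tA 0 268435456 2199023255552) dOA1_0)
    (eL 343919465658543814908814888987000832 (itO tA 268435456 1099511627776) eOA1))
    0 = true := by decide +kernel

end Vale.Agent.P355.K3
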