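import Vale.Agent.P355.D.EOA2
import Vale.Agent.P355.D.LOA2

namespace Vale.Agent.P355.K3

theorem runOA2 : run (sq (eL 40998395163839318145372258304 (it2 tA 0 268435456 137438953472) dOA2_0)
    (eL 21494966603658988431800930561687552 (itO tA 268435456 68719476736) eOA2))
    0 = true := by decide +kernel

end Vale.Agent.P355.K3
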