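import Vale.Agent.P355.D.EUB0
import Vale.Agent.P355.D.LUB0

namespace Vale.Agent.P355.K3

theorem runUB0 : run (sq (eL 167929426591085847123444770013184 (it2 tB 0 268435456 562949953421312) dUB0_0)
    (sq (eL 83964713295542923561722385006592 (it2 tB 0 268435456 281474976710656) dUB0_1)
    (sq (eL 83964713295542923561722385006592 (it2 tB 0 268435456 281474976710656) dUB0_2)
    (sq (eL 167929426591085847123444770013184 (it2 tB 0 268435456 562949953421312) dUB0_3)
    (sq (eL 167929426591085847123444770013184 (it2 tB 0 268435456 562949953421312) dUB0_4)
    (sq (eL 167929426591085847123444770013184 (it2 tB 0 268435456 562949953421312) dUB0_5)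
    (eL 435969717072224995905763565705998556204431509191138546851178872832 (itU tB 268435456 281474976710656) eUB0)))))))
    0 = true := by decide +kernel

end Vale.Agent.P355.K3
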