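import Vale.Agent.P355.D.EUB1
import Vale.Agent.P355.D.LUB1

namespace Vale.Agent.P355.K3

theorem runUB1 : run (sq (eL 5247794580971432722607649062912 (it2 tB 0 268435456 17592186044416) dUB1_0)
    (sq (eL 10495589161942865445215298125824 (it2 tB 0 268435456 35184372088832) dUB1_1)
    (sq (eL 10495589161942865445215298125824 (it2 tB 0 268435456 35184372088832) dUB1_2)
    (sq (eL 20991178323885730890430596251648 (it2 tB 0 268435456 70368744177664) dUB1_3)
    (sq (eL 20991178323885730890430596251648 (it2 tB 0 268435456 70368744177664) dUB1_4)
    (sq (eL 10495589161942865445215298125824 (it2 tB 0 268435456 35184372088832) dUB1_5)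
    (eL 27248107317014062244110222856624909762776969324446159178198679552 (itU tB 268435456 17592186044416) eUB1)))))))
    0 = true := by decide +kernel

end Vale.Agent.P355.K3
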