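import Vale.Agent.P355.D.EUB2
import Vale.Agent.P355.D.LUB2

namespace Vale.Agent.P355.K3

theorem runUB2 : run (sq (eL 2623897290485716361303824531456 (it2 tB 0 268435456 8796093022208) dUB2_0)
    (sq (eL 5247794580971432722607649062912 (it2 tB 0 268435456 17592186044416) dUB2_1)
    (sq (eL 2623897290485716361303824531456 (it2 tB 0 268435456 8796093022208) dUB2_2)
    (sq (eL 2623897290485716361303824531456 (it2 tB 0 268435456 8796093022208) dUB2_3)
    (sq (eL 5247794580971432722607649062912 (it2 tB 0 268435456 17592186044416) dUB2_4)
    (sq (eL 5247794580971432722607649062912 (it2 tB 0 268435456 17592186044416) dUB2_5)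
    (eL 13624053658507031122055111428312454881388484662223079589099339776 (itU tB 268435456 8796093022208) eUB2)))))))
    0 = true := by decide +kernel

end Vale.Agent.P355.K3
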