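import Vale.Agent.P355.D.EUB3
import Vale.Agent.P355.D.LUB3

namespace Vale.Agent.P355.K3

theorem runUB3 : run (sq (eL 40998395163839318145372258304 (it2 tB 0 268435456 137438953472) dUB3_0)
    (sq (eL 81996790327678636290744516608 (it2 tB 0 268435456 274877906944) dUB3_1)
    (sq (eL 40998395163839318145372258304 (it2 tB 0 268435456 137438953472) dUB3_2)
    (sq (eL 81996790327678636290744516608 (it2 tB 0 268435456 274877906944) dUB3_3)
    (sq (eL 40998395163839318145372258304 (it2 tB 0 268435456 137438953472) dUB3_4)
    (sq (eL 81996790327678636290744516608 (it2 tB 0 268435456 274877906944) dUB3_5)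
    (eL 212875838414172361282111116067382107521695072847235618579677184 (itU tB 268435456 137438953472) eUB3)))))))
    0 = true := by decide +kernel

end Vale.Agent.P355.K3
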