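import Vale.Agent.P355.D.EUB4
import Vale.Agent.P355.D.LUB4

namespace Vale.Agent.P355.K3

theorem runUB4 : run (sq (eL 10249598790959829536343064576 (it2 tB 0 268435456 34359738368) dUB4_0)
    (sq (eL 20499197581919659072686129152 (it2 tB 0 268435456 68719476736) dUB4_1)
    (sq (eL 20499197581919659072686129152 (it2 tB 0 268435456 68719476736) dUB4_2)
    (sq (eL 40998395163839318145372258304 (it2 tB 0 268435456 137438953472) dUB4_3)
    (sq (eL 20499197581919659072686129152 (it2 tB 0 268435456 68719476736) dUB4_4)
    (sq (eL 10249598790959829536343064576 (it2 tB 0 268435456 34359738368) dUB4_5)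
    (eL 53218959603543090320527779016845526880423768211808904644919296 (itU tB 268435456 34359738368) eUB4)))))))
    0 = true := by decide +kernel

end Vale.Agent.P355.K3
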