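import Vale.Agent.P355.D.EUC0
import Vale.Agent.P355.D.LUC0

namespace Vale.Agent.P355.K3

theorem runUC0 : run (sq (eL 10495589161942865445215298125824 (it2 tA 0 268435456 35184372088832) dUC0_0)
    (sq (eL 1311948645242858180651912265728 (it2 tA 0 268435456 4398046511104) dUC0_1)
    (eL 13624053658507031122055111428312454881388484662223079589099339776 (itU tA 268435456 8796093022208) eUC0)))
    0 = true := by decide +kernel

end Vale.Agent.P355.K3
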