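import Vale.Agent.P355.D.EUC1
import Vale.Agent.P355.D.LUC1

namespace Vale.Agent.P355.K3

theorem runUC1 : run (sq (eL 2623897290485716361303824531456 (it2 tA 0 268435456 8796093022208) dUC1_0)
    (sq (eL 327987161310714545162978066432 (it2 tA 0 268435456 1099511627776) dUC1_1)
    (eL 3406013414626757780513777857078113720347121165555769897274834944 (itU tA 268435456 2199023255552) eUC1)))
    0 = true := by decide +kernel

end Vale.Agent.P355.K3
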