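import Vale.Agent.P355.D.EUC2
import Vale.Agent.P355.D.LUC2

namespace Vale.Agent.P355.K3

theorem runUC2 : run (sq (eL 5247794580971432722607649062912 (it2 tA 0 268435456 17592186044416) dUC2_0)
    (sq (eL 1311948645242858180651912265728 (it2 tA 0 268435456 4398046511104) dUC2_1)
    (eL 3406013414626757780513777857078113720347121165555769897274834944 (itU tA 268435456 2199023255552) eUC2)))
    0 = true := by decide +kernel

end Vale.Agent.P355.K3
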