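import Vale.Agent.P355.D.EUC3
import Vale.Agent.P355.D.LUC3

namespace Vale.Agent.P355.K3

theorem runUC3 : run (sq (eL 5247794580971432722607649062912 (it2 tA 0 268435456 17592186044416) dUC3_0)
    (sq (eL 655974322621429090325956132864 (it2 tA 0 268435456 2199023255552) dUC3_1)
    (eL 6812026829253515561027555714156227440694242331111539794549669888 (itU tA 268435456 4398046511104) eUC3)))
    0 = true := by decide +kernel

end Vale.Agent.P355.K3
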