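import Vale.Agent.P355.D.EUC4
import Vale.Agent.P355.D.LUC4

namespace Vale.Agent.P355.K3

theorem runUC4 : run (sq (eL 327987161310714545162978066432 (it2 tA 0 268435456 1099511627776) dUC4_0)
    (sq (eL 163993580655357272581489033216 (it2 tA 0 268435456 549755813888) dUC4_1)
    (eL 425751676828344722564222232134764215043390145694471237159354368 (itU tA 268435456 274877906944) eUC4)))
    0 = true := by decide +kernel

end Vale.Agent.P355.K3
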