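import Vale.Agent.P355.D.EUC5
import Vale.Agent.P355.D.LUC5

namespace Vale.Agent.P355.K3

theorem runUC5 : run (sq (eL 163993580655357272581489033216 (it2 tA 0 268435456 549755813888) dUC5_0)
    (sq (eL 163993580655357272581489033216 (it2 tA 0 268435456 549755813888) dUC5_1)
    (eL 212875838414172361282111116067382107521695072847235618579677184 (itU tA 268435456 137438953472) eUC5)))
    0 = true := by decide +kernel

end Vale.Agent.P355.K3
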