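import Vale.Agent.P355.D.LX0
import Vale.Agent.P355.D.Rows

namespace Vale.Agent.P355.K3

theorem runX0 : run (sq (eL 160149981108747336505360384 (it2 tR 0 268435456 536870912) dX0_0)
    (sq (eL 160149981108747336505360384 (it2 tR 0 268435456 536870912) dX0_1)
    (sq (eL 40037495277186834126340096 (it2 tR 0 268435456 134217728) dX0_2)
    (sq (eL 1281199848869978692042883072 (it2 tR 0 268435456 4294967296) dX0_3)
    (sq (eL 640599924434989346021441536 (it2 tR 0 268435456 2147483648) dX0_4)
    (sq (eL 320299962217494673010720768 (it2 tR 0 268435456 1073741824) dX0_5)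
    (sq (gRect cJ Gp0 Gm0 rw00 rw01 0 9)
    (gRect cJ Gp1 Gm1 rw10 rw11 0 2))))))))
    225175185940 = true := by decide +kernel

end Vale.Agent.P355.K3
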