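import Vale.Agent.P355.D.LX1
import Vale.Agent.P355.D.Rows

namespace Vale.Agent.P355.K3

theorem runX1 : run (sq (eL 40037495277186834126340096 (it2 tR 0 268435456 134217728) dX1_0)
    (sq (eL 80074990554373668252680192 (it2 tR 0 268435456 268435456) dX1_1)
    (sq (eL 20018747638593417063170048 (it2 tR 0 268435456 67108864) dX1_2)
    (sq (eL 80074990554373668252680192 (it2 tR 0 268435456 268435456) dX1_3)
    (sq (eL 160149981108747336505360384 (it2 tR 0 268435456 536870912) dX1_4)
    (sq (eL 160149981108747336505360384 (it2 tR 0 268435456 536870912) dX1_5)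
    (sq (gRect cJ Gp0 Gm0 rw00 rw01 9 7)
    (gRect cJ Gp1 Gm1 rw10 rw11 2 4))))))))
    428057059204 = true := by decide +kernel

end Vale.Agent.P355.K3
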