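import Vale.Agent.P355.D.LX4
import Vale.Agent.P355.D.Rows

namespace Vale.Agent.P355.K3

theorem runX4 : run (sq (eL 10009373819296708531585024 (it2 tR 0 268435456 33554432) dX4_0)
    (sq (eL 20018747638593417063170048 (it2 tR 0 268435456 67108864) dX4_1)
    (sq (eL 10009373819296708531585024 (it2 tR 0 268435456 33554432) dX4_2)
    (sq (eL 20018747638593417063170048 (it2 tR 0 268435456 67108864) dX4_3)
    (sq (eL 80074990554373668252680192 (it2 tR 0 268435456 268435456) dX4_4)
    (sq (eL 40037495277186834126340096 (it2 tR 0 268435456 134217728) dX4_5)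
    (sq (gRect cJ Gp0 Gm0 rw00 rw01 34 9)
    (gRect cJ Gp1 Gm1 rw10 rw11 10 1))))))))
    398723467112 = true := by decide +kernel

end Vale.Agent.P355.K3
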