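import Vale.Agent.P355.D.FFA
import Vale.Agent.P355.D.LA0
import Vale.Agent.P355.D.LA1
import Vale.Agent.P355.D.LOA0
import Vale.Agent.P355.D.LOA1
import Vale.Agent.P355.D.LOA2
import Vale.Agent.P355.D.Misc

namespace Vale.Agent.P355.K3

theorem runZA0 : run (sq (eL 5247794580971432722607649062912 (it1 tA 0 268435456 17592186044416) dOA0_0)
    (sq (eL 655974322621429090325956132864 (it1 tA 0 268435456 2199023255552) dOA1_0)
    (sq (eL 40998395163839318145372258304 (it1 tA 0 268435456 137438953472) dOA2_0)
    (sq (eL 320299962217494673010720768 (it1 tA 0 268435456 1073741824) dA0_0)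
    (sq (eL 80074990554373668252680192 (it1 tA 0 268435456 268435456) dA1_0)
    (sq (gFL g33 fFA)
    (sq (eL 2623897290485716361303824531456 (it2 tZ 4 536870912 8796093022208) z1)
    (sq (eL 704347065668697732933252892645377703936 (itV tA 0 2361183241434822606848) vA0_0)
    (gC 0 746077160264954255866)))))))))
    2203633747548 = true := by decide +kernel

end Vale.Agent.P355.K3
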