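import Vale.Agent.P355.D.EOB0
import Vale.Agent.P355.D.LB0
import Vale.Agent.P355.D.LB1
import Vale.Agent.P355.D.LB2
import Vale.Agent.P355.D.LB3
import Vale.Agent.P355.D.LB4
import Vale.Agent.P355.D.LB5
import Vale.Agent.P355.D.LB6
import Vale.Agent.P355.D.LB7
import Vale.Agent.P355.D.LB8
import Vale.Agent.P355.D.LB9
import Vale.Agent.P355.D.LFB0
import Vale.Agent.P355.D.LFB1
import Vale.Agent.P355.D.LFB2
import Vale.Agent.P355.D.LUB0
import Vale.Agent.P355.D.LUB1
import Vale.Agent.P355.D.LUB2
import Vale.Agent.P355.D.LUB3
import Vale.Agent.P355.D.LUB4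
import Vale.Agent.P355.D.LX0
import Vale.Agent.P355.D.LX1
import Vale.Agent.P355.D.LX2
import Vale.Agent.P355.D.LX3
import Vale.Agent.P355.D.LX4
import Vale.Agent.P355.D.LX5
import Vale.Agent.P355.D.LX6
import Vale.Agent.P355.D.Misc

namespace Vale.Agent.P355.K3

theorem runZB0 : run (sq (eL 167929426591085847123444770013184 (it1 tB 0 268435456 562949953421312) dUB0_0)
    (sq (eL 5247794580971432722607649062912 (it1 tB 0 268435456 17592186044416) dUB1_0)
    (sq (eL 2623897290485716361303824531456 (it1 tB 0 268435456 8796093022208) dUB2_0)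
    (sq (eL 40998395163839318145372258304 (it1 tB 0 268435456 137438953472) dUB3_0)
    (sq (eL 10249598790959829536343064576 (it1 tB 0 268435456 34359738368) dUB4_0)
    (sq (eL 1281199848869978692042883072 (it1 tB 0 268435456 4294967296) dFB0_0)
    (sq (eL 2562399697739957384085766144 (it1 tB 0 268435456 8589934592) dFB1_0)
    (sq (eL 1281199848869978692042883072 (it1 tB 0 268435456 4294967296) dFB2_0)
    (sq (eL 160149981108747336505360384 (it1 tX 0 268435456 536870912) dX0_0)
    (sq (eL 40037495277186834126340096 (it1 tX 0 268435456 134217728) dX1_0)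
    (sq (eL 10009373819296708531585024 (it1 tX 0 268435456 33554432) dX2_0)
    (sq (eL 10009373819296708531585024 (it1 tX 0 268435456 33554432) dX3_0)
    (sq (eL 10009373819296708531585024 (it1 tX 0 268435456 33554432) dX4_0)
    (sq (eL 2502343454824177132896256 (it1 tX 0 268435456 8388608) dX5_0)
    (sq (eL 2502343454824177132896256 (it1 tX 0 268435456 8388608) dX6_0)
    (sq (eL 5124799395479914768171532288 (it1 tB 0 268435456 17179869184) dB0_0)
    (sq (eL 1281199848869978692042883072 (it1 tB 0 268435456 4294967296) dB1_0)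
    (sq (eL 2562399697739957384085766144 (it1 tB 0 268435456 8589934592) dB2_0)
    (sq (eL 320299962217494673010720768 (it1 tB 0 268435456 1073741824) dB3_0)
    (sq (eL 320299962217494673010720768 (it1 tB 0 268435456 1073741824) dB4_0)
    (sq (eL 320299962217494673010720768 (it1 tB 0 268435456 1073741824) dB5_0)
    (sq (eL 320299962217494673010720768 (it1 tB 0 268435456 1073741824) dB6_0)
    (sq (eL 640599924434989346021441536 (it1 tB 0 268435456 2147483648) dB7_0)
    (sq (eL 160149981108747336505360384 (it1 tB 0 268435456 536870912) dB8_0)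
    (sq (eL 20018747638593417063170048 (it1 tB 0 268435456 67108864) dB9_0)
    (sq (eL 88043383208587216616656611580672212992 (itO tB 268435456 281474976710656) eOB0)
    (sq (eL 1311948645242858180651912265728 (it2 tZ 4 268435456 4398046511104) z2_0)
    (sq (eL 45078212202796654907728185129304173051904 (itV tB 0 151115727451828646838272) vB0_0)
    (gC 0 0)))))))))))))))))))))))))))))
    2912524697600 = true := by decide +kernel

end Vale.Agent.P355.K3
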