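import Vale.Agent.P355.D.EOB1
import Vale.Agent.P355.D.LB0
import Vale.Agent.P355.D.LB1
import Vale.Agent.P355.D.LB2
import Vale.Agent.P355.D.LB3
import Vale.Agent.P355.D.LB4
import Vale.Agent.P355.D.LB5
import Vale.Agent.P355.D.LB6
import Vale.Agent.P355.D.LB7
import Vale.Agent.P355.D.LB8
import Vale.Agent.P355.D.LB9
import Vale.Agent.P355.D.LFB0
import Vale.Agent.P355.D.LFB1
import Vale.Agent.P355.D.LFB2
import Vale.Agent.P355.D.LUB0
import Vale.Agent.P355.D.LUB1
import Vale.Agent.P355.D.LUB2
import Vale.Agent.P355.D.LUB3
import Vale.Agent.P355.D.LUB4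
import Vale.Agent.P355.D.LX0
import Vale.Agent.P355.D.LX1
import Vale.Agent.P355.D.LX2
import Vale.Agent.P355.D.LX3
import Vale.Agent.P355.D.LX4
import Vale.Agent.P355.D.LX5
import Vale.Agent.P355.D.LX6
import Vale.Agent.P355.D.Misc

namespace Vale.Agent.P355.K3

theorem runZB1 : run (sq (eL 83964713295542923561722385006592 (it1 tB 0 268435456 281474976710656) dUB0_1)
    (sq (eL 10495589161942865445215298125824 (it1 tB 0 268435456 35184372088832) dUB1_1)
    (sq (eL 5247794580971432722607649062912 (it1 tB 0 268435456 17592186044416) dUB2_1)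
    (sq (eL 81996790327678636290744516608 (it1 tB 0 268435456 274877906944) dUB3_1)
    (sq (eL 20499197581919659072686129152 (it1 tB 0 268435456 68719476736) dUB4_1)
    (sq (eL 2562399697739957384085766144 (it1 tB 0 268435456 8589934592) dFB0_1)
    (sq (eL 5124799395479914768171532288 (it1 tB 0 268435456 17179869184) dFB1_1)
    (sq (eL 5124799395479914768171532288 (it1 tB 0 268435456 17179869184) dFB2_1)
    (sq (eL 160149981108747336505360384 (it1 tX 0 268435456 536870912) dX0_1)
    (sq (eL 80074990554373668252680192 (it1 tX 0 268435456 268435456) dX1_1)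
    (sq (eL 20018747638593417063170048 (it1 tX 0 268435456 67108864) dX2_1)
    (sq (eL 40037495277186834126340096 (it1 tX 0 268435456 134217728) dX3_1)
    (sq (eL 20018747638593417063170048 (it1 tX 0 268435456 67108864) dX4_1)
    (sq (eL 10009373819296708531585024 (it1 tX 0 268435456 33554432) dX5_1)
    (sq (eL 5004686909648354265792512 (it1 tX 0 268435456 16777216) dX6_1)
    (sq (eL 5124799395479914768171532288 (it1 tB 0 268435456 17179869184) dB0_1)
    (sq (eL 2562399697739957384085766144 (it1 tB 0 268435456 8589934592) dB1_1)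
    (sq (eL 1281199848869978692042883072 (it1 tB 0 268435456 4294967296) dB2_1)
    (sq (eL 320299962217494673010720768 (it1 tB 0 268435456 1073741824) dB3_1)
    (sq (eL 320299962217494673010720768 (it1 tB 0 268435456 1073741824) dB4_1)
    (sq (eL 320299962217494673010720768 (it1 tB 0 268435456 1073741824) dB5_1)
    (sq (eL 160149981108747336505360384 (it1 tB 0 268435456 536870912) dB6_1)
    (sq (eL 320299962217494673010720768 (it1 tB 0 268435456 1073741824) dB7_1)
    (sq (eL 160149981108747336505360384 (it1 tB 0 268435456 536870912) dB8_1)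
    (sq (eL 40037495277186834126340096 (it1 tB 0 268435456 134217728) dB9_1)
    (sq (eL 22010845802146804154164152895168053248 (itO tB 268435456 70368744177664) eOB1)
    (sq (eL 1311948645242858180651912265728 (it2 tZ 4 268435456 4398046511104) z2_1)
    (sq (eL 22539106101398327453864092564652086525952 (itV tB 0 75557863725914323419136) vB1_0)
    (sq (eL 11269553050699163726932046282326043262976 (itV tB 132 37778931862957161709568) vB1_132)
    (gC 0 0))))))))))))))))))))))))))))))
    2652142305280 = true := by decide +kernel

end Vale.Agent.P355.K3
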