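import Vale.Agent.P355.D.LC0
import Vale.Agent.P355.D.LC1
import Vale.Agent.P355.D.LC2
import Vale.Agent.P355.D.LC3
import Vale.Agent.P355.D.LC4
import Vale.Agent.P355.D.LC5
import Vale.Agent.P355.D.LC6
import Vale.Agent.P355.D.LC7
import Vale.Agent.P355.D.LC8
import Vale.Agent.P355.D.LC9
import Vale.Agent.P355.D.LFC0
import Vale.Agent.P355.D.LFC1
import Vale.Agent.P355.D.LUC0
import Vale.Agent.P355.D.LUC1
import Vale.Agent.P355.D.LUC2
import Vale.Agent.P355.D.LUC3
import Vale.Agent.P355.D.LUC4
import Vale.Agent.P355.D.LUC5

namespace Vale.Agent.P355.K3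

theorem runZC1 : run (sq (eL 1311948645242858180651912265728 (it1 tA 0 268435456 4398046511104) dUC0_1)
    (sq (eL 327987161310714545162978066432 (it1 tA 0 268435456 1099511627776) dUC1_1)
    (sq (eL 1311948645242858180651912265728 (it1 tA 0 268435456 4398046511104) dUC2_1)
    (sq (eL 655974322621429090325956132864 (it1 tA 0 268435456 2199023255552) dUC3_1)
    (sq (eL 163993580655357272581489033216 (it1 tA 0 268435456 549755813888) dUC4_1)
    (sq (eL 163993580655357272581489033216 (it1 tA 0 268435456 549755813888) dUC5_1)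
    (sq (eL 160149981108747336505360384 (it1 tA 0 268435456 536870912) dFC0_1)
    (sq (eL 160149981108747336505360384 (it1 tA 0 268435456 536870912) dFC1_1)
    (sq (eL 80074990554373668252680192 (it1 tA 0 268435456 268435456) dC0_1)
    (sq (eL 640599924434989346021441536 (it1 tA 0 268435456 2147483648) dC1_1)
    (sq (eL 320299962217494673010720768 (it1 tA 0 268435456 1073741824) dC2_1)
    (sq (eL 80074990554373668252680192 (it1 tA 0 268435456 268435456) dC3_1)
    (sq (eL 20018747638593417063170048 (it1 tA 0 268435456 67108864) dC4_1)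
    (sq (eL 40037495277186834126340096 (it1 tA 0 268435456 134217728) dC5_1)
    (sq (eL 40037495277186834126340096 (it1 tA 0 268435456 134217728) dC6_1)
    (sq (eL 80074990554373668252680192 (it1 tA 0 268435456 268435456) dC7_1)
    (sq (eL 40037495277186834126340096 (it1 tA 0 268435456 134217728) dC8_1)
    (sq (eL 5004686909648354265792512 (it1 tA 0 268435456 16777216) dC9_1)
    (gC 0 0)))))))))))))))))))
    3740111208448 = true := by decide +kernel

end Vale.Agent.P355.K3
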