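import Vale.Agent.P355.D.LB2
import Vale.Agent.P355.D.Rows

namespace Vale.Agent.P355.K3

theorem runB2 : run (sq (eL 2562399697739957384085766144 (it2 tR 0 268435456 8589934592) dB2_0)
    (sq (eL 1281199848869978692042883072 (it2 tR 0 268435456 4294967296) dB2_1)
    (sq (eL 2562399697739957384085766144 (it2 tR 0 268435456 8589934592) dB2_2)
    (sq (eL 2562399697739957384085766144 (it2 tR 0 268435456 8589934592) dB2_3)
    (sq (eL 2562399697739957384085766144 (it2 tR 0 268435456 8589934592) dB2_4)
    (sq (eL 1281199848869978692042883072 (it2 tR 0 268435456 4294967296) dB2_5)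
    (sq (gTri cB Gp0 Gm0 rw01 18 10)
    (gTri cB Gp1 Gm1 rw11 5 3))))))))
    410282205046 = true := by decide +kernel

end Vale.Agent.P355.K3
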